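import Mathlib

/-!
# Generic linear maps avoid bad conditions (Hausdorff dimension count)
-/

open Set Finset
open scoped ENNReal

namespace Vale.Agent.P300.H918

/-- The image of an open set of a real vector space of dimension `d` under a `C¹` map has
Hausdorff dimension `≤ d`. -/
theorem dimH_image_open_le {E F : Type*} [NormedAddCommGroup E] [NormedSpace ℝ E]
    [FiniteDimensional ℝ E] [NormedAddCommGroup F] [NormedSpace ℝ F]
    {s : Set E} (hs : IsOpen s) {f : E → F} (hf : ContDiffOn ℝ 1 f s) :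
    dimH (f '' s) ≤ (Module.finrank ℝ E : ℝ≥0∞) := by
  have h1 : dimH (f '' s) ≤ dimH s := by
    refine dimH_image_le_of_locally_lipschitzOn (fun x hx => ?_)
    obtain ⟨K, t, ht, hK⟩ := (hf.contDiffAt (hs.mem_nhds hx)).exists_lipschitzOnWith
    exact ⟨K, t, mem_nhdsWithin_of_mem_nhds ht, hK⟩
  refine h1.trans ?_
  rw [← Real.dimH_univ_eq_finrank E]
  exact dimH_mono (subset_univ _)

/-- The index set of the free entries. -/
abbrev FreeIdx (n k : ℕ) (b0 : Fin n) : Type :=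
  {p : Fin 4 × Fin n // ¬ ((p.1 : ℕ) < k ∧ p.2 = b0)}

theorem card_freeIdx {n k : ℕ} (hk : k ≤ 4) (b0 : Fin n) :
    Fintype.card (FreeIdx n k b0) = 4 * n - k := by
  classical
  have h1 : Fintype.card (FreeIdx n k b0) = Fintype.card (Fin 4 × Fin n) -
      Fintype.card {p : Fin 4 × Fin n // ((p.1 : ℕ) < k ∧ p.2 = b0)} :=
    Fintype.card_subtype_compl _
  rw [h1, Fintype.card_prod, Fintype.card_fin, Fintype.card_fin]
  congr 1
  let e : Fin k ≃ {p : Fin 4 × Fin n // ((p.1 : ℕ) < k ∧ p.2 = b0)} :=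
    { toFun := fun i => ⟨(⟨i, lt_of_lt_of_le i.2 hk⟩, b0), i.2, rfl⟩
      invFun := fun p => ⟨p.1.1, p.2.1⟩
      left_inv := fun i => by ext; rfl
      right_inv := fun p => by
        obtain ⟨⟨a, b⟩, h1, h2⟩ := p
        simp only at h1 h2
        subst h2
        rfl }
  rw [← Fintype.card_congr e, Fintype.card_fin]

/-- The parametrisation of the bad set. -/
noncomputable def par {n : ℕ} {P : Type*} (k : ℕ) (V : P → (Fin n → ℂ)) (b0 : Fin n)
    (q : P × (FreeIdx n k b0 → ℂ)) : Fin 4 → Fin n → ℂ := fun r b =>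
  if h : (r : ℕ) < k ∧ b = b0 then
    -(∑ b', if h' : ¬ ((r : ℕ) < k ∧ b' = b0) then q.2 ⟨(r, b'), h'⟩ * V q.1 b' else 0) *
      (V q.1 b0)⁻¹
  else q.2 ⟨(r, b), h⟩

theorem par_contDiffOn {n : ℕ} {P : Type*} [NormedAddCommGroup P] [NormedSpace ℝ P]
    (k : ℕ) {D : Set P} (V : P → (Fin n → ℂ)) (hV : ContDiffOn ℝ 1 V D) (b0 : Fin n) :
    ContDiffOn ℝ 1 (par k V b0) ((D ∩ {u | V u b0 ≠ 0}) ×ˢ univ) := by
  have hVb : ∀ b, ContDiffOn ℝ 1 (fun q : P × (FreeIdx n k b0 → ℂ) => V q.1 b)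
      ((D ∩ {u | V u b0 ≠ 0}) ×ˢ univ) := by
    intro b
    have h1 : ContDiffOn ℝ 1 (fun u => V u b) D := (contDiffOn_pi.1 hV) b
    exact h1.comp contDiffOn_fst (fun q hq => hq.1.1)
  have hq : ∀ i : FreeIdx n k b0, ContDiffOn ℝ 1 (fun q : P × (FreeIdx n k b0 → ℂ) => q.2 i)
      ((D ∩ {u | V u b0 ≠ 0}) ×ˢ univ) := by
    intro i
    exact (contDiff_apply ℝ ℂ i |>.comp contDiff_snd).contDiffOn
  rw [contDiffOn_pi]
  intro r
  rw [contDiffOn_pi]
  intro b
  unfold par
  by_cases h : (r : ℕ) < k ∧ b = b0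
  · simp only [h, and_self, dite_true]
    refine ContDiffOn.mul (ContDiffOn.neg (ContDiffOn.sum (fun b' _ => ?_))) ?_
    · split_ifs with h'
      · exact contDiffOn_const
      · exact (hq _).mul (hVb b')
    · exact (hVb b0).inv (fun q hq => hq.1.2)
  · simp only [h, dite_false]
    exact hq _

theorem bad_dimH {n : ℕ} {P : Type*} [NormedAddCommGroup P] [NormedSpace ℝ P]
    [FiniteDimensional ℝ P] (k : ℕ) (hk : k ≤ 4) (hP : Module.finrank ℝ P < 2 * k) {D : Set P}
    (hD : IsOpen D) (V : P → (Fin n → ℂ)) (hV : ContDiffOn ℝ 1 V D) (h0 : ∀ u ∈ D, V u ≠ 0) :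
    dimH {A : Fin 4 → Fin n → ℂ | ∃ u ∈ D, ∀ r : Fin 4, (r : ℕ) < k → ∑ b, A r b * V u b = 0}
      ≤ ((8 * n - 1 : ℕ) : ℝ≥0∞) := by
  classical
  have hsub : {A : Fin 4 → Fin n → ℂ | ∃ u ∈ D, ∀ r : Fin 4, (r : ℕ) < k →
      ∑ b, A r b * V u b = 0} ⊆ ⋃ b0 : Fin n, par k V b0 '' ((D ∩ {u | V u b0 ≠ 0}) ×ˢ univ) := by
    rintro A ⟨u, hu, hA⟩
    obtain ⟨b0, hb0⟩ : ∃ b0, V u b0 ≠ 0 := by
      by_contra hcon
      push Not at hcon
      exact h0 u hu (funext hcon)
    refine mem_iUnion.2 ⟨b0, (u, fun p => A p.1.1 p.1.2), ⟨⟨hu, hb0⟩, mem_univ _⟩, ?_⟩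
    funext r b
    unfold par
    by_cases h : (r : ℕ) < k ∧ b = b0
    · simp only [h, and_self, dite_true]
      obtain ⟨hr, rfl⟩ := h
      have h1 := hA r hr
      have h2 : (∑ b', if h' : ¬ ((r : ℕ) < k ∧ b' = b) then A r b' * V u b' else 0)
          = ∑ b' ∈ Finset.univ.erase b, A r b' * V u b' := by
        rw [← Finset.sum_filter_add_sum_filter_not Finset.univ (fun b' => b' = b)]
        have e1 : (∑ x ∈ Finset.univ with x = b,
            if h' : ¬((r : ℕ) < k ∧ x = b) then A r x * V u x else 0) = 0 := by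
          refine Finset.sum_eq_zero (fun x hx => ?_)
          have := (Finset.mem_filter.1 hx).2
          simp [this, hr]
        rw [e1, zero_add]
        refine Finset.sum_congr ?_ (fun x hx => ?_)
        · ext x; simp
        · have : x ≠ b := (Finset.mem_erase.1 hx).1
          simp [this]
      have h3 : A r b * V u b + ∑ b' ∈ Finset.univ.erase b, A r b' * V u b' = 0 := by
        rw [Finset.add_sum_erase Finset.univ (fun b' => A r b' * V u b') (Finset.mem_univ b)]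
        exact h1
      simp only [hr, true_and] at h2 ⊢
      rw [h2]
      have h4 : ∑ b' ∈ Finset.univ.erase b, A r b' * V u b' = - (A r b * V u b) := by
        linear_combination h3
      rw [h4, neg_neg]
      have hb : V u b ≠ 0 := hb0
      field_simp
    · simp only [h, dite_false]
  refine (dimH_mono hsub).trans ?_
  rw [dimH_iUnion]
  refine iSup_le (fun b0 => ?_)
  have hopen : IsOpen ((D ∩ {u | V u b0 ≠ 0}) ×ˢ (univ : Set (FreeIdx n k b0 → ℂ))) := by
    refine IsOpen.prod ?_ isOpen_univ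
    have hc : ContinuousOn (fun u => V u b0) D := by
      have h1 : ContDiffOn ℝ 1 (fun u => V u b0) D := (contDiffOn_pi.1 hV) b0
      exact h1.continuousOn
    exact hc.isOpen_inter_preimage hD isOpen_compl_singleton
  refine (dimH_image_open_le hopen (par_contDiffOn k V hV b0)).trans ?_
  have hfr : Module.finrank ℝ (P × (FreeIdx n k b0 → ℂ)) = Module.finrank ℝ P + (4 * n - k) * 2 := by
    rw [Module.finrank_prod, Module.finrank_pi_fintype]
    simp only [Complex.finrank_real_complex, Finset.sum_const, Finset.card_univ, smul_eq_mul]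
    rw [card_freeIdx hk b0]
  rw [hfr]
  have hn : 1 ≤ n := by have := b0.2; omega
  have hfin : Module.finrank ℝ P + (4 * n - k) * 2 ≤ 8 * n - 1 := by omega
  exact_mod_cast hfin

theorem exists_generic {n : ℕ} (hn : 1 ≤ n) {ι : Type*} [Countable ι]
    (bad : ι → Set (Fin 4 → Fin n → ℂ)) (h : ∀ i, dimH (bad i) ≤ ((8 * n - 1 : ℕ) : ℝ≥0∞)) :
    ∃ A, ∀ i, A ∉ bad i := by
  have h1 : dimH (⋃ i, bad i) ≤ ((8 * n - 1 : ℕ) : ℝ≥0∞) := by
    rw [dimH_iUnion]; exact iSup_le h
  have hfr : Module.finrank ℝ (Fin 4 → Fin n → ℂ) = 8 * n := by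
    rw [Module.finrank_pi_fintype]
    simp only [Module.finrank_pi_fintype, Complex.finrank_real_complex, Finset.sum_const,
      Finset.card_univ, smul_eq_mul, Fintype.card_fin]
    ring
  have h2 : dimH (⋃ i, bad i) < (Module.finrank ℝ (Fin 4 → Fin n → ℂ) : ℝ≥0∞) := by
    refine h1.trans_lt ?_
    rw [hfr]
    have : 8 * n - 1 < 8 * n := by omega
    exact_mod_cast this
  obtain ⟨A, hA⟩ := (dense_compl_of_dimH_lt_finrank h2).nonempty
  exact ⟨A, fun i hi => hA (mem_iUnion.2 ⟨i, hi⟩)⟩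

end Vale.Agent.P300.H918
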