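import Mathlib

/-!
# Newton's identities with polynomial coefficients, homogenised

`newt`: if the power sums of the `N` numbers `ξ v`, `v ∈ S w`, are polynomials `P m` in `w` of
degree `≤ m`, then `∏ (t - ξ v)` is the value at `(1, w 0, w 1, t)` of a homogeneous polynomial of
degree `N` in four variables.
-/

open MvPolynomial Finset

namespace Vale.Agent.P300.H918

/-- Homogenisation (in the variables `X 1, X 2`, new variable `X 0`). -/
noncomputable def hmg (Q : MvPolynomial (Fin 2) ℂ) (j : ℕ) : MvPolynomial (Fin 4) ℂ :=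
  ∑ d ∈ Q.support, C (coeff d Q) * (X 0 ^ (j - (d 0 + d 1)) * X 1 ^ (d 0) * X 2 ^ (d 1))

theorem hmg_hom (Q : MvPolynomial (Fin 2) ℂ) (j : ℕ) (hQ : Q.totalDegree ≤ j) :
    (hmg Q j).IsHomogeneous j := by
  unfold hmg
  refine IsHomogeneous.sum _ _ _ (fun d hd => ?_)
  have hle : d 0 + d 1 ≤ j := by
    have h1 := le_totalDegree hd
    rw [Finsupp.sum_fintype _ _ (fun _ => rfl), Fin.sum_univ_two] at h1
    omega
  have h2 : (X 0 ^ (j - (d 0 + d 1)) * X 1 ^ (d 0) * X 2 ^ (d 1) :
      MvPolynomial (Fin 4) ℂ).IsHomogeneous j := by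
    have := ((isHomogeneous_X_pow (R := ℂ) (0 : Fin 4) (j - (d 0 + d 1))).mul
      (isHomogeneous_X_pow (R := ℂ) (1 : Fin 4) (d 0))).mul
      (isHomogeneous_X_pow (R := ℂ) (2 : Fin 4) (d 1))
    have e : j - (d 0 + d 1) + d 0 + d 1 = j := by omega
    rwa [e] at this
  exact h2.C_mul _

theorem eval_hmg (Q : MvPolynomial (Fin 2) ℂ) (j : ℕ) (w : Fin 2 → ℂ) (t : ℂ) :
    eval ![1, w 0, w 1, t] (hmg Q j) = eval w Q := by
  unfold hmg
  rw [map_sum, eval_eq']
  refine Finset.sum_congr rfl (fun d _ => ?_)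
  simp [Fin.prod_univ_two]

/-- Newton's identity for a finset of complex numbers (with multiplicity). -/
theorem newton_finset {β : Type*} (s : Finset β) (ξ : β → ℂ) (k : ℕ) :
    (k : ℂ) * (s.val.map ξ).esymm k = (-1) ^ (k + 1) *
      ∑ a ∈ antidiagonal k with a.1 < k, (-1) ^ a.1 * (s.val.map ξ).esymm a.1 *
        ∑ v ∈ s, ξ v ^ a.2 := by
  have h := congrArg (aeval (fun x : s => ξ x)) (MvPolynomial.mul_esymm_eq_sum s ℂ k)
  have he : ∀ n, aeval (fun x : s => ξ x) (esymm s ℂ n) = (s.val.map ξ).esymm n := by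
    intro n
    rw [aeval_esymm_eq_multiset_esymm]
    congr 1
    have : (univ : Finset s).val.map (fun x : s => ξ x) = (s.attach.val.map (fun x => ξ x.1)) := rfl
    rw [this]
    exact Multiset.attach_map_val' s.val ξ
  have hp : ∀ n, aeval (fun x : s => ξ x) (psum s ℂ n) = ∑ v ∈ s, ξ v ^ n := by
    intro n
    rw [psum, map_sum]
    simp only [map_pow, aeval_X]
    exact Finset.sum_coe_sort s (fun v => ξ v ^ n)
  simp only [map_mul, map_natCast, map_pow, map_neg, map_one, map_sum, he, hp] at h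
  exact h

theorem newt {β : Type*} (N : ℕ) (Good : Set (Fin 2 → ℂ)) (S : (Fin 2 → ℂ) → Finset β)
    (ξ : β → ℂ) (P : ℕ → MvPolynomial (Fin 2) ℂ) (hP : ∀ m, (P m).totalDegree ≤ m)
    (hcard : ∀ w ∈ Good, (S w).card = N)
    (hsum : ∀ w ∈ Good, ∀ m, ∑ v ∈ S w, ξ v ^ m = MvPolynomial.eval w (P m)) :
    ∃ G : MvPolynomial (Fin 4) ℂ, G.IsHomogeneous N ∧
      ∀ w ∈ Good, ∀ t : ℂ, MvPolynomial.eval ![1, w 0, w 1, t] G = ∏ v ∈ S w, (t - ξ v) := by
  have hQ : ∀ k, ∃ Q : MvPolynomial (Fin 2) ℂ, Q.totalDegree ≤ k ∧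
      ∀ w ∈ Good, ((S w).val.map ξ).esymm k = eval w Q := by
    intro k
    induction k using Nat.strong_induction_on with
    | _ k ih =>
      rcases Nat.eq_zero_or_pos k with rfl | hk
      · refine ⟨1, by simp, fun w _ => ?_⟩
        simp [Multiset.esymm]
      · choose Q hQd hQe using ih
        refine ⟨C ((k : ℂ)⁻¹ * (-1) ^ (k + 1)) *
          ∑ a ∈ antidiagonal k, if h : a.1 < k then C ((-1) ^ a.1) * Q a.1 h * P a.2 else 0, ?_,
          fun w hw => ?_⟩
        · refine (totalDegree_mul _ _).trans ?_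
          rw [totalDegree_C, zero_add]
          refine totalDegree_finsetSum_le (fun a ha => ?_)
          split_ifs with h
          · refine (totalDegree_mul _ _).trans ?_
            refine (Nat.add_le_add_right (totalDegree_mul _ _) _).trans ?_
            rw [totalDegree_C, zero_add]
            have h1 := hQd a.1 h
            have h2 := hP a.2
            have h3 := mem_antidiagonal.1 ha
            omega
          · simp
        · have h1 := newton_finset (S w) ξ k
          have hk0 : (k : ℂ) ≠ 0 := by exact_mod_cast hk.ne'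
          have h2 : ((S w).val.map ξ).esymm k = (k : ℂ)⁻¹ * ((k : ℂ) *
              ((S w).val.map ξ).esymm k) := by
            field_simp
          rw [h2, h1, map_mul, eval_C, map_sum, mul_assoc]
          congr 2
          rw [Finset.sum_filter]
          refine Finset.sum_congr rfl (fun a _ => ?_)
          split_ifs with h
          · rw [map_mul, map_mul, eval_C, hQe a.1 h w hw, hsum w hw a.2]
          · simp
  choose Q hQd hQe using hQ
  refine ⟨∑ j ∈ range (N + 1), C ((-1) ^ j) * hmg (Q j) j * X 3 ^ (N - j), ?_, ?_⟩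
  · refine IsHomogeneous.sum _ _ _ (fun j hj => ?_)
    have h1 := ((hmg_hom (Q j) j (hQd j)).C_mul ((-1) ^ j)).mul
      (isHomogeneous_X_pow (R := ℂ) (3 : Fin 4) (N - j))
    have e : j + (N - j) = N := by have := mem_range.1 hj; omega
    rwa [e] at h1
  · intro w hw t
    have h1 := congrArg (Polynomial.eval t)
      (Multiset.prod_X_sub_X_eq_sum_esymm ((S w).val.map ξ))
    have hc : Multiset.card ((S w).val.map ξ) = N := by
      rw [Multiset.card_map]; exact hcard w hw
    rw [hc] at h1
    have h2 : Polynomial.eval t (Multiset.map (fun t => Polynomial.X - Polynomial.C t)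
        ((S w).val.map ξ)).prod = ∏ v ∈ S w, (t - ξ v) := by
      rw [Multiset.map_map, Polynomial.eval_multiset_prod, Multiset.map_map]
      simp only [Finset.prod]
      congr 1
      refine Multiset.map_congr rfl (fun v _ => ?_)
      simp
    rw [← h2, h1, Polynomial.eval_finsetSum, map_sum]
    refine Finset.sum_congr rfl (fun j _ => ?_)
    rw [hQe j w hw, map_mul, map_mul, eval_C, eval_hmg, map_pow, eval_X]
    simp only [Polynomial.eval_mul, Polynomial.eval_pow, Polynomial.eval_C, Polynomial.eval_X,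
      Polynomial.eval_neg, Polynomial.eval_one]
    have h3 : (![1, w 0, w 1, t] : Fin 4 → ℂ) 3 = t := rfl
    rw [h3]
    ring

end Vale.Agent.P300.H918
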