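import Vale.Agent.P300.H86.Spec

/-!
# [V], [N], [J]: the characteristic polynomial of a linear form on an affine part
-/

open Complex Filter Set MeasureTheory
open scoped Topology ContDiff
open Vale.Agent.P300.H86

namespace Vale.Agent.P300.H918

variable {n : ℕ} (S : Aff n)

theorem p_diff (i : S.ι) : DifferentiableOn ℂ (S.p i) (S.D i) :=
  S.pr.differentiable.comp_differentiableOn (S.diff i)

/-- A conull condition on the base is satisfied on a dense subset of each chart. -/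
theorem exists_good {P : W → Prop} (hP : ∀ᵐ w : W, P w) (i : S.ι) {U : Set W} (hU : IsOpen U)
    (hUD : U ⊆ S.D i) (hne : U.Nonempty) : ∃ x ∈ U, P (S.p i x) := by
  obtain ⟨x, hx, hJ⟩ := S.dense i U hU hUD hne
  obtain ⟨e, hxe, hsub, he, -⟩ := exists_localInverse hU ((p_diff S i).mono hUD) hx hJ
  have hpos : 0 < volume e.target := by
    refine e.open_target.measure_pos volume ⟨e x, e.map_source hxe⟩
  obtain ⟨w, hw, hPw⟩ : ∃ w ∈ e.target, P w := by
    by_contra hcon
    push Not at hcon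
    have h1 : volume e.target ≤ volume {w | ¬ P w} := measure_mono hcon
    have h2 : volume {w | ¬ P w} = 0 := hP
    rw [h2] at h1
    exact absurd hpos (not_lt.2 h1)
  refine ⟨e.symm w, (hsub (e.map_target hw)).1, ?_⟩
  have h3 : S.p i (e.symm w) = w := by
    have : S.p i = e := he.symm
    rw [this]
    exact e.right_inv hw
  rw [h3]
  exact hPw

/-- Conull subsets of `ℂ²` are dense. -/
theorem exists_near {P : W → Prop} (hP : ∀ᵐ w : W, P w) {U : Set W} (hU : IsOpen U)
    (hne : U.Nonempty) : ∃ w ∈ U, P w := by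
  by_contra hcon
  push Not at hcon
  have h1 : volume U ≤ volume {w | ¬ P w} := measure_mono hcon
  have h2 : volume {w | ¬ P w} = 0 := hP
  rw [h2] at h1
  exact absurd (hU.measure_pos volume hne) (not_lt.2 h1)

theorem cont_vec : Continuous (fun q : W × ℂ => (![1, q.1 0, q.1 1, q.2] : Fin 4 → ℂ)) := by
  refine continuous_pi (fun k => ?_)
  fin_cases k
  · exact continuous_const
  · exact (continuous_apply 0).comp continuous_fst
  · exact (continuous_apply 1).comp continuous_fst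
  · exact continuous_snd

/-- Evaluation at `(1, w 0, w 1, t)`. -/
noncomputable def ev (G : MvPolynomial (Fin 4) ℂ) (q : W × ℂ) : ℂ :=
  MvPolynomial.eval ![1, q.1 0, q.1 1, q.2] G

theorem cont_ev (G : MvPolynomial (Fin 4) ℂ) : Continuous (ev G) :=
  (MvPolynomial.continuous_eval G).comp cont_vec

theorem hasDerivAt_eval (G : MvPolynomial (Fin 4) ℂ) (a b t : ℂ) :
    HasDerivAt (fun t => MvPolynomial.eval ![1, a, b, t] G)
      (MvPolynomial.eval ![1, a, b, t] (MvPolynomial.pderiv 3 G)) t := by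
  induction G using MvPolynomial.induction_on with
  | C c => simpa using hasDerivAt_const t c
  | add p q hp hq =>
    simp only [map_add]
    exact hp.add hq
  | mul_X p i hp =>
    have hX : HasDerivAt (fun t => MvPolynomial.eval ![1, a, b, t] (MvPolynomial.X i))
        (MvPolynomial.eval ![1, a, b, t] (MvPolynomial.pderiv 3 (MvPolynomial.X i))) t := by
      simp only [MvPolynomial.eval_X, MvPolynomial.pderiv_X]
      fin_cases i
      · simpa using hasDerivAt_const t (1 : ℂ)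
      · simpa using hasDerivAt_const t a
      · simpa using hasDerivAt_const t b
      · simpa using hasDerivAt_id' t
    simp only [map_mul, Derivation.leibniz, map_add, smul_eq_mul]
    have := hp.mul hX
    convert! this using 1
    ring

theorem vprop : S.VProp := by
  intro ξ N G hG v hv
  obtain ⟨i, u, hu, rfl⟩ := S.cover v hv
  by_contra hne
  obtain ⟨g, hgdef⟩ : ∃ g : W → ℂ, g = fun x => ev G (S.pr (S.f i x), ξ (S.f i x)) := ⟨_, rfl⟩
  have hg : ContinuousOn g (S.D i) := by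
    have h1 : ContinuousOn (S.f i) (S.D i) := (S.diff i).continuousOn
    have h2 : ContinuousOn (fun x => ((S.pr (S.f i x), ξ (S.f i x)) : W × ℂ)) (S.D i) :=
      (S.pr.continuous.comp_continuousOn h1).prodMk (ξ.continuous.comp_continuousOn h1)
    rw [hgdef]
    exact (cont_ev G).comp_continuousOn h2
  have hopen : IsOpen (S.D i ∩ g ⁻¹' {0}ᶜ) := hg.isOpen_inter_preimage (S.openD i) isOpen_compl_singleton
  have hne' : (S.D i ∩ g ⁻¹' {0}ᶜ).Nonempty := by
    refine ⟨u, hu, ?_⟩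
    rw [hgdef]
    exact hne
  obtain ⟨x, hx, s, hs, -, ht⟩ := exists_good S hG i hopen inter_subset_left hne'
  apply hx.2
  rw [hgdef]
  have hmem : S.f i x ∈ s := (hs _).2 ⟨S.mem i x hx.1, rfl⟩
  change MvPolynomial.eval ![1, S.p i x 0, S.p i x 1, ξ (S.f i x)] G = 0
  rw [ht]
  exact Finset.prod_eq_zero hmem (sub_self _)

/-- A closed part of `Z` over a ball is compact. -/
theorem compact_part (w : W) {K : Set (Fin n → ℂ)} (hK : IsClosed K) :
    IsCompact {v | v ∈ S.Z ∧ v ∈ K ∧ ‖S.pr v - w‖ ≤ 1} := by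
  obtain ⟨C, hC⟩ := S.growth
  have hclosed : IsClosed {v | v ∈ S.Z ∧ v ∈ K ∧ ‖S.pr v - w‖ ≤ 1} := by
    refine S.closed.inter (hK.inter ?_)
    exact isClosed_le ((S.pr.continuous.sub continuous_const).norm) continuous_const
  refine Metric.isCompact_of_isClosed_isBounded hclosed ?_
  refine (Metric.isBounded_closedBall (x := (0 : Fin n → ℂ)) (r := |C| * (1 + (‖w‖ + 1)))).subset ?_
  rintro v ⟨hv, -, hvw⟩
  rw [mem_closedBall_zero_iff]
  have h1 : ‖S.pr v‖ ≤ ‖w‖ + 1 := by
    calc ‖S.pr v‖ = ‖w + (S.pr v - w)‖ := by rw [add_sub_cancel]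
      _ ≤ ‖w‖ + ‖S.pr v - w‖ := norm_add_le _ _
      _ ≤ ‖w‖ + 1 := by linarith
  calc ‖v‖ ≤ C * (1 + ‖S.pr v‖) := hC v hv
    _ ≤ |C| * (1 + ‖S.pr v‖) := by
        gcongr
        exact le_abs_self C
    _ ≤ |C| * (1 + (‖w‖ + 1)) := by gcongr

/-- Uniform separation: if no point of `Z ∩ K` has `(pr, ξ) = (w, t)`, then `|ξ v - t| ≥ c` for all
`v ∈ Z ∩ K` with `pr v` near `w`. -/
theorem separation (ξ : (Fin n → ℂ) →L[ℂ] ℂ) (w : W) (t : ℂ) {K : Set (Fin n → ℂ)}
    (hK : IsClosed K) (h : ∀ v ∈ S.Z, v ∈ K → S.pr v = w → ξ v ≠ t) :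
    ∃ c > 0, ∃ r > 0, ∀ v ∈ S.Z, v ∈ K → ‖S.pr v - w‖ < r → c ≤ ‖ξ v - t‖ := by
  have hc := compact_part S w hK
  have hcont : Continuous (fun v : Fin n → ℂ => ‖S.pr v - w‖ + ‖ξ v - t‖) :=
    ((S.pr.continuous.sub continuous_const).norm).add ((ξ.continuous.sub continuous_const).norm)
  obtain ⟨δ, hδ, hδ'⟩ : ∃ δ > 0, ∀ v, v ∈ S.Z ∧ v ∈ K ∧ ‖S.pr v - w‖ ≤ 1 →
      δ ≤ ‖S.pr v - w‖ + ‖ξ v - t‖ := by
    rcases eq_empty_or_nonempty {v | v ∈ S.Z ∧ v ∈ K ∧ ‖S.pr v - w‖ ≤ 1} with he | hne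
    · refine ⟨1, one_pos, fun v hv => ?_⟩
      have : v ∈ ({v | v ∈ S.Z ∧ v ∈ K ∧ ‖S.pr v - w‖ ≤ 1} : Set _) := hv
      rw [he] at this
      exact absurd this (notMem_empty v)
    · obtain ⟨v0, hv0, hmin⟩ := hc.exists_isMinOn hne hcont.continuousOn
      refine ⟨‖S.pr v0 - w‖ + ‖ξ v0 - t‖, ?_, fun v hv => hmin hv⟩
      by_contra hcon
      have h1 : ‖S.pr v0 - w‖ = 0 := by
        have := norm_nonneg (S.pr v0 - w); have := norm_nonneg (ξ v0 - t); linarith
      have h2 : ‖ξ v0 - t‖ = 0 := by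
        have := norm_nonneg (S.pr v0 - w); have := norm_nonneg (ξ v0 - t); linarith
      exact h v0 hv0.1 hv0.2.1 (sub_eq_zero.1 (norm_eq_zero.1 h1)) (sub_eq_zero.1 (norm_eq_zero.1 h2))
  refine ⟨δ / 2, by positivity, min 1 (δ / 2), by positivity, fun v hv hvK hvw => ?_⟩
  have h1 := hδ' v ⟨hv, hvK, (hvw.trans_le (min_le_left _ _)).le⟩
  have h2 := hvw.trans_le (min_le_right _ _)
  linarith

theorem nprop : S.NProp := by
  intro ξ N G hG w t hsep hzero
  obtain ⟨c, hc, r, hr, hcr⟩ := separation S ξ w t isClosed_univ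
    (fun v hv _ hvw => hsep v hv hvw)
  -- near `w` the value is small
  have hcont : Continuous (fun w' : W => ev G (w', t)) :=
    (cont_ev G).comp (continuous_id.prodMk continuous_const)
  have hopen : IsOpen (Metric.ball w r ∩ (fun w' : W => ‖ev G (w', t)‖) ⁻¹' (Iio (c ^ N))) :=
    Metric.isOpen_ball.inter (isOpen_Iio.preimage hcont.norm)
  have hz : ev G (w, t) = 0 := hzero
  obtain ⟨w', hw', s, hs, hcard, ht⟩ := exists_near hG hopen ⟨w, Metric.mem_ball_self hr, by
    simp only [mem_preimage, mem_Iio, hz, norm_zero]; positivity⟩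
  have h1 : c ^ N ≤ ‖ev G (w', t)‖ := by
    have e1 : ev G (w', t) = _ := ht t
    rw [e1, norm_prod, ← hcard, ← Finset.prod_const]
    refine Finset.prod_le_prod (fun _ _ => hc.le) (fun v hv => ?_)
    obtain ⟨hvZ, hvw⟩ := (hs v).1 hv
    rw [norm_sub_rev]
    refine hcr v hvZ (mem_univ _) ?_
    rw [hvw]
    simpa [dist_eq_norm] using hw'.1
  exact absurd hw'.2 (not_lt.2 h1)

theorem jprop : S.JProp := by
  intro ξ N G hG i u hu hJ hsep hzero
  set v0 := S.f i u with hv0
  obtain ⟨e, hue, hsub, he, -⟩ := exists_localInverse (S.openD i) (p_diff S i) hu hJ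
  have he' : ∀ x, S.p i x = e x := fun x => by rw [he]
  -- a ball around `v0` in which `Z` is the image of `e.source`
  have hnb := S.openImg i u hu e.source (e.open_source.mem_nhds hue)
  obtain ⟨ρ, hρ, hρ'⟩ := Metric.mem_nhdsWithin_iff.1 hnb
  -- separation away from the ball
  have hK : IsClosed ((Metric.ball v0 ρ)ᶜ) := Metric.isOpen_ball.isClosed_compl
  obtain ⟨c, hc, r, hr, hcr⟩ := separation S ξ (S.p i u) (ξ v0) hK (fun v hv hvK hvw hvt => by
    have := hsep v hv hvw hvt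
    apply hvK
    rw [this]
    exact Metric.mem_ball_self hρ)
  -- the local section and the value of `ξ` along it
  have htgt : e.target ∈ 𝓝 (S.p i u) := by
    rw [he']; exact e.open_target.mem_nhds (e.map_source hue)
  have hesymm : e.symm (S.p i u) = u := by rw [he']; exact e.left_inv hue
  have hcs : ContinuousAt (fun w' => S.f i (e.symm w')) (S.p i u) := by
    have h1 : ContinuousAt e.symm (S.p i u) := by
      rw [he']; exact e.continuousAt_symm (e.map_source hue)
    have h2 : ContinuousAt (S.f i) (e.symm (S.p i u)) := by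
      rw [hesymm]
      exact ((S.diff i).continuousOn).continuousAt ((S.openD i).mem_nhds hu)
    exact ContinuousAt.comp' h2 h1
  have hcξ : ContinuousAt (fun w' => ξ (S.f i (e.symm w'))) (S.p i u) :=
    ContinuousAt.comp' (f := fun w' => S.f i (e.symm w')) (g := fun v => ξ v)
      ξ.continuous.continuousAt hcs
  have hcont : ContinuousAt (fun w' : W => ev (MvPolynomial.pderiv 3 G)
      (w', ξ (S.f i (e.symm w')))) (S.p i u) := by
    have h1 : ContinuousAt (fun w' : W => ((w', ξ (S.f i (e.symm w'))) : W × ℂ)) (S.p i u) :=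
      continuousAt_id.prodMk hcξ
    exact ContinuousAt.comp' (f := fun w' : W => ((w', ξ (S.f i (e.symm w'))) : W × ℂ))
      (g := ev (MvPolynomial.pderiv 3 G)) ((cont_ev _).continuousAt) h1
  have hval : ev (MvPolynomial.pderiv 3 G) (S.p i u, ξ (S.f i (e.symm (S.p i u)))) = 0 := by
    rw [hesymm]
    exact hzero
  have hev : ∀ᶠ w' in 𝓝 (S.p i u), w' ∈ e.target ∧ ‖w' - S.p i u‖ < r ∧
      S.f i (e.symm w') ∈ Metric.ball v0 ρ ∧ ‖ξ (S.f i (e.symm w')) - ξ v0‖ < c / 2 ∧
      ‖ev (MvPolynomial.pderiv 3 G) (w', ξ (S.f i (e.symm w')))‖ < (c / 2) ^ (N - 1) := by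
    have a1 : ∀ᶠ w' in 𝓝 (S.p i u), ‖w' - S.p i u‖ < r := by
      filter_upwards [Metric.ball_mem_nhds (S.p i u) hr] with w' hw'
      simpa [dist_eq_norm] using hw'
    have a2 : ∀ᶠ w' in 𝓝 (S.p i u), S.f i (e.symm w') ∈ Metric.ball v0 ρ := by
      apply hcs.eventually_mem
      apply Metric.isOpen_ball.mem_nhds
      rw [hesymm]
      exact Metric.mem_ball_self hρ
    have a3 : ∀ᶠ w' in 𝓝 (S.p i u), ‖ξ (S.f i (e.symm w')) - ξ v0‖ < c / 2 := by
      have h1 : ContinuousAt (fun w' => ‖ξ (S.f i (e.symm w')) - ξ v0‖) (S.p i u) :=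
        (hcξ.sub continuousAt_const).norm
      refine h1.eventually_lt continuousAt_const ?_
      simp only [hesymm, ← hv0, sub_self, norm_zero]
      positivity
    have a4 := (hcont.norm).eventually_lt (g := fun _ => (c / 2) ^ (N - 1)) continuousAt_const (by
      rw [hval, norm_zero]; positivity)
    filter_upwards [htgt, a1, a2, a3, a4] with w' h1 h2 h3 h4 h5
    exact ⟨h1, h2, h3, h4, h5⟩
  obtain ⟨U, hUsub, hUo, hUm⟩ := mem_nhds_iff.1 hev
  obtain ⟨w', hw', s, hs, hcard, ht⟩ := exists_near hG hUo ⟨_, hUm⟩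
  obtain ⟨hw1, hw2, hw3, hw4, hw5⟩ := hUsub hw'
  set v1 := S.f i (e.symm w') with hv1
  have hxs : e.symm w' ∈ e.source := e.map_target hw1
  have hpv1 : S.pr v1 = w' := by
    have : S.p i (e.symm w') = w' := by rw [he']; exact e.right_inv hw1
    exact this
  have hmem : v1 ∈ s := (hs _).2 ⟨S.mem i _ (hsub hxs).1, hpv1⟩
  -- the derivative at `ξ v1`
  have hd1 := hasDerivAt_eval G (w' 0) (w' 1) (ξ v1)
  have hfun : (fun t => MvPolynomial.eval ![1, w' 0, w' 1, t] G) =
      fun t => (t - ξ v1) * ∏ v ∈ s.erase v1, (t - ξ v) := by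
    funext t
    rw [ht t, Finset.mul_prod_erase s (fun v => t - ξ v) hmem]
  rw [hfun] at hd1
  have hR : DifferentiableAt ℂ (fun t : ℂ => ∏ v ∈ s.erase v1, (t - ξ v)) (ξ v1) := by
    fun_prop
  have hd2 : HasDerivAt (fun t => (t - ξ v1) * ∏ v ∈ s.erase v1, (t - ξ v))
      (1 * ∏ v ∈ s.erase v1, (ξ v1 - ξ v) + (ξ v1 - ξ v1) *
        deriv (fun t : ℂ => ∏ v ∈ s.erase v1, (t - ξ v)) (ξ v1)) (ξ v1) :=
    ((hasDerivAt_id (ξ v1)).sub_const (ξ v1)).mul hR.hasDerivAt
  have hval2 := hd1.unique hd2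
  rw [sub_self, zero_mul, add_zero, one_mul] at hval2
  have hlow : (c / 2) ^ (N - 1) ≤ ‖∏ v ∈ s.erase v1, (ξ v1 - ξ v)‖ := by
    rw [norm_prod, ← hcard, ← Finset.card_erase_of_mem hmem, ← Finset.prod_const]
    refine Finset.prod_le_prod (fun _ _ => by positivity) (fun v hv => ?_)
    obtain ⟨hne, hvs⟩ := Finset.mem_erase.1 hv
    obtain ⟨hvZ, hvw⟩ := (hs v).1 hvs
    have hvK : v ∈ (Metric.ball v0 ρ)ᶜ := by
      intro hvb
      obtain ⟨x, ⟨hx1, hx2⟩, hx3⟩ := hρ' ⟨hvb, hvZ⟩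
      apply hne
      have : e x = w' := by
        rw [← he', Aff.p, hx3, hvw]
      have hx4 : x = e.symm w' := by rw [← this, e.left_inv hx1]
      rw [← hx3, hx4]
    have h1 := hcr v hvZ hvK (by rw [hvw]; exact hw2)
    have h2 : ‖ξ v - ξ v0‖ ≤ ‖ξ v1 - ξ v‖ + ‖ξ v1 - ξ v0‖ := by
      have : ξ v - ξ v0 = -(ξ v1 - ξ v) + (ξ v1 - ξ v0) := by ring
      rw [this]
      exact (norm_add_le _ _).trans (by rw [norm_neg])
    linarith
  rw [← hval2] at hlow
  exact absurd hw5 (not_lt.2 hlow)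

end Vale.Agent.P300.H918
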