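import Vale.Agent.P300.H86.Moll

/-!
# Stokes on one chart of `ℂ²` (Piola identity), and `|det_ℝ L| = |det_ℂ L|²`
-/

open Complex Set MeasureTheory
open scoped Topology ContDiff ComplexConjugate
open Vale.Agent.P300.H86

namespace Vale.Agent.P300.H918

/-- `2 ∂/∂\bar u_k`. -/
noncomputable def dbar (F : W → ℂ) (k : Fin 2) (u : W) : ℂ :=
  fderiv ℝ F u (bs k 1) + I * fderiv ℝ F u (bs k I)

theorem bs_I (k : Fin 2) : bs k I = I • bs k 1 := by
  rw [← bs_smul, mul_one]

theorem integral_fderiv_zero (B : W → ℂ) (hB : ContDiff ℝ 1 B) (hc : HasCompactSupport B)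
    (v : W) : Integrable (fun u => fderiv ℝ B u v) ∧ ∫ u, fderiv ℝ B u v = 0 := by
  have hcont : Continuous (fun u => fderiv ℝ B u v) :=
    (hB.continuous_fderiv one_ne_zero).clm_apply continuous_const
  have hsupp : HasCompactSupport (fun u => fderiv ℝ B u v) :=
    hc.fderiv_apply (𝕜 := ℝ) v
  have hint : Integrable (fun u => fderiv ℝ B u v) := hcont.integrable_of_hasCompactSupport hsupp
  refine ⟨hint, ?_⟩
  have h1 := integral_mul_fderiv_eq_neg_fderiv_mul_of_integrable (μ := (volume : Measure W))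
    (f := fun _ : W => (1 : ℂ)) (g := B) (v := v)
    (by simp) (by simpa using hint)
    (by simpa using hB.continuous.integrable_of_hasCompactSupport hc)
    (fun _ _ => differentiableAt_const _)
    (fun _ _ => (hB.differentiable one_ne_zero).differentiableAt)
  simpa using h1

theorem integral_dbar_zero (B : W → ℂ) (hB : ContDiff ℝ 1 B) (hc : HasCompactSupport B)
    (k : Fin 2) : Integrable (fun u => dbar B k u) ∧ ∫ u, dbar B k u = 0 := by
  obtain ⟨h1, h1'⟩ := integral_fderiv_zero B hB hc (bs k 1)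
  obtain ⟨h2, h2'⟩ := integral_fderiv_zero B hB hc (bs k I)
  refine ⟨h1.add (h2.const_mul I), ?_⟩
  unfold dbar
  rw [integral_add h1 (h2.const_mul I), h1', integral_const_mul, h2']
  simp

theorem dbar_mul {F K : W → ℂ} {u : W} (hF : DifferentiableAt ℝ F u)
    (hK : DifferentiableAt ℝ K u) (k : Fin 2) :
    dbar (fun x => F x * K x) k u = F u * dbar K k u + K u * dbar F k u := by
  unfold dbar
  rw [fderiv_fun_mul hF hK]
  simp only [_root_.add_apply, _root_.smul_apply, smul_eq_mul]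
  ring

theorem dbar_congr {F K : W → ℂ} {u : W} (h : F =ᶠ[𝓝 u] K) (k : Fin 2) :
    dbar F k u = dbar K k u := by
  unfold dbar
  rw [h.fderiv_eq]

theorem dbar_hol {F : W → ℂ} {u : W} (hF : DifferentiableAt ℂ F u) (k : Fin 2) :
    dbar F k u = 0 := by
  unfold dbar
  have h1 : fderiv ℝ F u = (fderiv ℂ F u).restrictScalars ℝ :=
    (hF.hasFDerivAt.restrictScalars ℝ).fderiv
  rw [h1, bs_I]
  simp only [ContinuousLinearMap.coe_restrictScalars', map_smul, smul_eq_mul]
  rw [← mul_assoc, I_mul_I]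
  ring

theorem dbar_conj {F : W → ℂ} {u : W} (hF : DifferentiableAt ℂ F u) (k : Fin 2) :
    dbar (fun x => conj (F x)) k u = 2 * conj (fderiv ℂ F u (bs k 1)) := by
  have h1 : HasFDerivAt F ((fderiv ℂ F u).restrictScalars ℝ) u :=
    hF.hasFDerivAt.restrictScalars ℝ
  have h2 : HasFDerivAt (fun x => conj (F x))
      ((conjCLE : ℂ →L[ℝ] ℂ).comp ((fderiv ℂ F u).restrictScalars ℝ)) u :=
    (conjCLE : ℂ →L[ℝ] ℂ).hasFDerivAt.comp u h1
  unfold dbar
  rw [h2.fderiv, bs_I]
  simp only [ContinuousLinearMap.comp_apply, ContinuousLinearMap.coe_restrictScalars', map_smul,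
    smul_eq_mul, ContinuousLinearEquiv.coe_coe, conjCLE_apply, map_mul, conj_I]
  ring_nf
  rw [I_sq]
  ring

/-- Cut-off times a function that is smooth on `D` is globally smooth. -/
theorem contDiff_cutoff {D : Set W} {F : W → ℂ} (hF : ∀ u ∈ D, ContDiffAt ℝ 1 F u)
    {b : W → ℝ} (hb : ContDiff ℝ 1 b) (hbD : tsupport b ⊆ D) :
    ContDiff ℝ 1 (fun u => (b u : ℂ) * F u) := by
  rw [contDiff_iff_contDiffAt]
  intro u
  by_cases hu : u ∈ D
  · exact ((ofRealCLM.contDiff.comp hb).contDiffAt).mul (hF u hu)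
  · have h1 : u ∉ tsupport b := fun h => hu (hbD h)
    have h2 : (fun u => (b u : ℂ) * F u) =ᶠ[𝓝 u] fun _ => 0 := by
      have := notMem_tsupport_iff_eventuallyEq.1 h1
      filter_upwards [this] with x hx
      simp [hx]
    exact contDiffAt_const.congr_of_eventuallyEq h2

/-- The divergence identity: global form. -/
theorem div_zero {D : Set W} (hD : IsOpen D) {f : W → ℂ} (hf : AnalyticOnNhd ℂ f D)
    {a : Fin 2 → W → ℂ} (ha : ∀ k, AnalyticOnNhd ℂ (a k) D)
    (hdiv : ∀ u ∈ D, fderiv ℂ (a 0) u (bs 0 1) + fderiv ℂ (a 1) u (bs 1 1) = 0)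
    {b : W → ℝ} (hb : ContDiff ℝ ∞ b) (hbc : HasCompactSupport b) (hbD : tsupport b ⊆ D) :
    IntegrableOn (fun u => f u * (conj (a 0 u) * dbar (fun x => (b x : ℂ)) 0 u +
        conj (a 1 u) * dbar (fun x => (b x : ℂ)) 1 u)) D ∧
      ∫ u in D, f u * (conj (a 0 u) * dbar (fun x => (b x : ℂ)) 0 u +
        conj (a 1 u) * dbar (fun x => (b x : ℂ)) 1 u) = 0 := by
  have hb1 : ContDiff ℝ 1 b := hb.of_le (by exact_mod_cast le_top)
  have hfd : ∀ u ∈ D, DifferentiableAt ℂ f u := fun u hu => (hf u hu).differentiableAt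
  have had : ∀ k, ∀ u ∈ D, DifferentiableAt ℂ (a k) u := fun k u hu => (ha k u hu).differentiableAt
  have hfc : ∀ u ∈ D, ContDiffAt ℝ 1 f u := fun u hu => ((hf u hu).contDiffAt).restrict_scalars ℝ
  have hac : ∀ k, ∀ u ∈ D, ContDiffAt ℝ 1 (fun x => conj (a k x)) u := fun k u hu =>
    (conjCLE.contDiff.contDiffAt).comp u (((ha k u hu).contDiffAt).restrict_scalars ℝ)
  let B : Fin 2 → W → ℂ := fun k u => (b u : ℂ) * (f u * conj (a k u))
  have hB : ∀ k, ContDiff ℝ 1 (B k) := fun k =>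
    contDiff_cutoff (fun u hu => (hfc u hu).mul (hac k u hu)) hb1 hbD
  have hBsub : ∀ k, tsupport (B k) ⊆ tsupport b := by
    intro k
    refine closure_mono (fun u hu => ?_)
    intro h0
    apply hu
    simp [B, h0]
  have hBc : ∀ k, HasCompactSupport (B k) := fun k => hbc.of_isClosed_subset (isClosed_tsupport _) (hBsub k)
  have hI := fun k => integral_dbar_zero (B k) (hB k) (hBc k) k
  -- pointwise identity on `D`
  have hpt : ∀ u ∈ D, dbar (B 0) 0 u + dbar (B 1) 1 u =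
      f u * (conj (a 0 u) * dbar (fun x => (b x : ℂ)) 0 u +
        conj (a 1 u) * dbar (fun x => (b x : ℂ)) 1 u) := by
    intro u hu
    have hbr : DifferentiableAt ℝ (fun x => (b x : ℂ)) u :=
      ((ofRealCLM.contDiff.comp hb1).contDiffAt).differentiableAt one_ne_zero
    have hfr : DifferentiableAt ℝ f u := (hfc u hu).differentiableAt one_ne_zero
    have har : ∀ k, DifferentiableAt ℝ (fun x => conj (a k x)) u := fun k =>
      (hac k u hu).differentiableAt one_ne_zero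
    have e : ∀ k, dbar (B k) k u = (b u : ℂ) * (f u * (2 * conj (fderiv ℂ (a k) u (bs k 1)))) +
        f u * conj (a k u) * dbar (fun x => (b x : ℂ)) k u := by
      intro k
      have e1 : dbar (B k) k u = (b u : ℂ) * dbar (fun x => f x * conj (a k x)) k u +
          (f u * conj (a k u)) * dbar (fun x => (b x : ℂ)) k u :=
        dbar_mul hbr (hfr.mul (har k)) k
      rw [e1, dbar_mul hfr (har k) k, dbar_conj (had k u hu), dbar_hol (hfd u hu)]
      ring
    rw [e 0, e 1]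
    have hd := congrArg conj (hdiv u hu)
    rw [map_add, map_zero] at hd
    linear_combination (2 * (b u : ℂ) * f u) * hd
  have hout : ∀ u, u ∉ D → dbar (B 0) 0 u + dbar (B 1) 1 u = 0 := by
    intro u hu
    have hz : ∀ k, dbar (B k) k u = 0 := by
      intro k
      have h1 : u ∉ tsupport (B k) := fun h => hu (hbD (hBsub k h))
      have h2 : B k =ᶠ[𝓝 u] fun _ => (0 : ℂ) := notMem_tsupport_iff_eventuallyEq.1 h1
      rw [dbar_congr h2]
      simp [dbar]
    rw [hz 0, hz 1, add_zero]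
  have hmeas : MeasurableSet D := hD.measurableSet
  constructor
  · refine (((hI 0).1.add (hI 1).1).integrableOn (s := D)).congr_fun (fun u hu => ?_) hmeas
    exact hpt u hu
  · rw [← setIntegral_congr_fun hmeas hpt, setIntegral_eq_integral_of_forall_compl_eq_zero hout,
      integral_add (hI 0).1 (hI 1).1, (hI 0).2, (hI 1).2, add_zero]

/-- The entries of the complex Jacobian matrix. -/
noncomputable def ent (φ : W → W) (i k : Fin 2) (u : W) : ℂ := fderiv ℂ φ u (bs k 1) i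

theorem W_eq' (w : W) : w = (w 0) • bs 0 1 + (w 1) • bs 1 1 := by
  conv_lhs => rw [W_eq w]
  rw [← bs_smul, ← bs_smul, mul_one, mul_one]

theorem det_two (M : W →L[ℂ] W) :
    M.det = M (bs 0 1) 0 * M (bs 1 1) 1 - M (bs 1 1) 0 * M (bs 0 1) 1 := by
  have h1 : M.det = (LinearMap.toMatrix' (M : W →ₗ[ℂ] W)).det := by
    rw [LinearMap.det_toMatrix']
  rw [h1, Matrix.det_fin_two]
  have e : ∀ i k, (LinearMap.toMatrix' (M : W →ₗ[ℂ] W)) i k = M (bs k 1) i := by
    intro i k
    rw [LinearMap.toMatrix'_apply]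
    simp only [ContinuousLinearMap.coe_coe]
    congr 2
  rw [e, e, e, e]

/-- Numerators of the inverse matrix. -/
theorem inv_apply (M : W →L[ℂ] W) (hM : M.det ≠ 0) (v w : W) (h : M v = M.det • w) :
    Ring.inverse M w = (M.det)⁻¹ • v := by
  have hu : IsUnit M := by
    have h1 := ContinuousLinearMap.coe_toContinuousLinearEquivOfDetNeZero M hM
    exact ⟨ContinuousLinearEquiv.toUnit (M.toContinuousLinearEquivOfDetNeZero hM), h1⟩
  have h2 : w = M ((M.det)⁻¹ • v) := by
    rw [map_smul, h, smul_smul, inv_mul_cancel₀ hM, one_smul]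
  have h3 := Ring.inverse_mul_cancel M hu
  have h4 : (Ring.inverse M * M) ((M.det)⁻¹ • v) = (M.det)⁻¹ • v := by rw [h3]; rfl
  rw [h2]
  exact h4

theorem inv_of_det_zero (M : W →L[ℂ] W) (hM : M.det = 0) : Ring.inverse M = 0 := by
  apply Ring.inverse_non_unit
  rintro ⟨e, he⟩
  have h1 : M * (e⁻¹ : (W →L[ℂ] W)ˣ) = 1 := by rw [← he]; exact e.mul_inv
  have h2 : LinearMap.det (M : W →ₗ[ℂ] W) * LinearMap.det ((e⁻¹ : (W →L[ℂ] W)ˣ) : W →ₗ[ℂ] W) = 1 := by
    rw [← LinearMap.det_comp]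
    have : (M : W →ₗ[ℂ] W) ∘ₗ (((e⁻¹ : (W →L[ℂ] W)ˣ) : W →L[ℂ] W) : W →ₗ[ℂ] W) = LinearMap.id := by
      refine LinearMap.ext (fun x => ?_)
      exact congrArg (fun (L : W →L[ℂ] W) => L x) h1
    rw [this, LinearMap.det_id]
  have h3 : LinearMap.det (M : W →ₗ[ℂ] W) = 0 := hM
  rw [h3, zero_mul] at h2
  exact zero_ne_one h2

/-- Pointwise identity. -/
theorem pt_identity (M : W →L[ℂ] W) (L : W →L[ℝ] ℝ) (G : ℂ) (a0 a1 : ℂ) (j : Fin 2)
    (h : M (a0 • bs 0 1 + a1 • bs 1 1) = M.det • bs j 1) :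
    ((‖M.det‖ ^ 2 : ℝ) : ℂ) * (G * ((L ((Ring.inverse M) (bs j 1)) : ℂ) +
      I * (L ((Ring.inverse M) (bs j I)) : ℂ))) =
    G * M.det * (conj a0 * ((L (bs 0 1) : ℂ) + I * (L (bs 0 I) : ℂ)) +
      conj a1 * ((L (bs 1 1) : ℂ) + I * (L (bs 1 I) : ℂ))) := by
  by_cases hM : M.det = 0
  · rw [hM]; simp
  · have h1 := inv_apply M hM _ _ h
    have h2 : Ring.inverse M (bs j I) = I • ((M.det)⁻¹ • (a0 • bs 0 1 + a1 • bs 1 1)) := by
      rw [bs_I, map_smul, h1]
    rw [h1, h2]
    -- `q z = L z + I L (I z)` is conjugate linear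
    have q : ∀ (c : ℂ) (z : W), (L (c • z) : ℂ) + I * (L (I • (c • z)) : ℂ) =
        conj c * ((L z : ℂ) + I * (L (I • z) : ℂ)) := by
      intro c z
      have e1 : c • z = c.re • z + c.im • (I • z) := by
        conv_lhs => rw [← Complex.re_add_im c]
        rw [add_smul, mul_smul]
        simp
      have e2 : I • (c • z) = c.re • (I • z) - c.im • z := by
        rw [e1, smul_add, smul_comm I c.re, smul_comm I c.im, smul_smul I I, I_mul_I]
        simp [sub_eq_add_neg]
      rw [e2, e1, map_add, map_sub, L.map_smul c.re z, L.map_smul c.im (I • z),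
        L.map_smul c.re (I • z), L.map_smul c.im z]
      conv_rhs => rw [← Complex.re_add_im c]
      simp only [smul_eq_mul, ofReal_add, ofReal_sub, ofReal_mul, map_add, map_mul, conj_ofReal,
        conj_I]
      linear_combination ((c.im : ℂ) * (L (I • z) : ℂ)) * I_sq
    have q2 : ∀ z z' : W, (L (z + z') : ℂ) + I * (L (I • (z + z')) : ℂ) =
        ((L z : ℂ) + I * (L (I • z) : ℂ)) + ((L z' : ℂ) + I * (L (I • z') : ℂ)) := by
      intro z z'
      rw [smul_add, map_add, map_add, ofReal_add, ofReal_add]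
      ring
    rw [q, q2, q, q, ← bs_I, ← bs_I]
    have e3 : ((‖M.det‖ ^ 2 : ℝ) : ℂ) = M.det * conj M.det := by
      rw [mul_conj, normSq_eq_norm_sq]
    have e4 : conj M.det ≠ 0 := by simpa using hM
    rw [e3, map_inv₀]
    field_simp

/-- The entries are analytic. -/
theorem ent_analytic {D : Set W} {φ : W → W} (hφ : AnalyticOnNhd ℂ φ D) (i k : Fin 2) :
    AnalyticOnNhd ℂ (ent φ i k) D := by
  have h1 : AnalyticOnNhd ℂ (fderiv ℂ φ) D := hφ.fderiv
  exact ((ContinuousLinearMap.proj (R := ℂ) (φ := fun _ : Fin 2 => ℂ) i).comp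
    (ContinuousLinearMap.apply ℂ W (bs k 1))).comp_analyticOnNhd h1

/-- Symmetry of the second derivatives. -/
theorem ent_symm {D : Set W} {φ : W → W} (hφ : AnalyticOnNhd ℂ φ D) (i k l : Fin 2) {u : W}
    (hu : u ∈ D) :
    fderiv ℂ (ent φ i k) u (bs l 1) = fderiv ℂ (ent φ i l) u (bs k 1) := by
  have h1 : AnalyticAt ℂ (fderiv ℂ φ) u := hφ.fderiv u hu
  have hd : DifferentiableAt ℂ (fderiv ℂ φ) u := h1.differentiableAt
  have key : ∀ k l : Fin 2, fderiv ℂ (ent φ i k) u (bs l 1) =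
      (fderiv ℂ (fderiv ℂ φ) u (bs l 1)) (bs k 1) i := by
    intro k l
    have h2 : HasFDerivAt (ent φ i k)
        (((ContinuousLinearMap.proj (R := ℂ) (φ := fun _ : Fin 2 => ℂ) i).comp
          (ContinuousLinearMap.apply ℂ W (bs k 1))).comp (fderiv ℂ (fderiv ℂ φ) u)) u :=
      (((ContinuousLinearMap.proj (R := ℂ) (φ := fun _ : Fin 2 => ℂ) i).comp
        (ContinuousLinearMap.apply ℂ W (bs k 1))).hasFDerivAt).comp u hd.hasFDerivAt
    rw [h2.fderiv]
    rfl
  have hs : IsSymmSndFDerivAt ℂ φ u :=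
    ContDiffAt.isSymmSndFDerivAt_of_omega ((hφ u hu).contDiffAt)
  rw [key, key, hs.eq]

theorem stokes_chart {D : Set W} (hD : IsOpen D) {φ : W → W} (hφ : AnalyticOnNhd ℂ φ D)
    {G : W → ℂ} (hG : AnalyticOnNhd ℂ G D) {b : W → ℝ} (hb : ContDiff ℝ ∞ b)
    (hbc : HasCompactSupport b) (hbD : tsupport b ⊆ D) (j : Fin 2) :
    IntegrableOn (fun u => ((‖(fderiv ℂ φ u).det‖ ^ 2 : ℝ) : ℂ) *
        (G u * ((fderiv ℝ b u ((Ring.inverse (fderiv ℂ φ u)) (bs j 1)) : ℂ) +
          I * (fderiv ℝ b u ((Ring.inverse (fderiv ℂ φ u)) (bs j I)) : ℂ)))) D ∧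
      ∫ u in D, ((‖(fderiv ℂ φ u).det‖ ^ 2 : ℝ) : ℂ) *
        (G u * ((fderiv ℝ b u ((Ring.inverse (fderiv ℂ φ u)) (bs j 1)) : ℂ) +
          I * (fderiv ℝ b u ((Ring.inverse (fderiv ℂ φ u)) (bs j I)) : ℂ))) = 0 := by
  have hdet : ∀ u, (fderiv ℂ φ u).det =
      ent φ 0 0 u * ent φ 1 1 u - ent φ 0 1 u * ent φ 1 0 u := fun u => det_two _
  have hJ : AnalyticOnNhd ℂ (fun u => G u * (fderiv ℂ φ u).det) D := by
    have : (fun u => G u * (fderiv ℂ φ u).det) =
        fun u => G u * (ent φ 0 0 u * ent φ 1 1 u - ent φ 0 1 u * ent φ 1 0 u) := by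
      funext u; rw [hdet]
    rw [this]
    exact hG.mul (((ent_analytic hφ 0 0).mul (ent_analytic hφ 1 1)).sub
      ((ent_analytic hφ 0 1).mul (ent_analytic hφ 1 0)))
  have hdb : ∀ (u : W) (k : Fin 2), dbar (fun x => (b x : ℂ)) k u =
      (fderiv ℝ b u (bs k 1) : ℂ) + I * (fderiv ℝ b u (bs k I) : ℂ) := by
    intro u k
    have h1 : HasFDerivAt (fun x => (b x : ℂ)) (ofRealCLM.comp (fderiv ℝ b u)) u :=
      ofRealCLM.hasFDerivAt.comp u
        ((hb.differentiable (by simp)).differentiableAt.hasFDerivAt)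
    unfold dbar
    rw [h1.fderiv]
    rfl
  -- reduction to `div_zero`
  have main : ∀ a : Fin 2 → W → ℂ, (∀ k, AnalyticOnNhd ℂ (a k) D) →
      (∀ u ∈ D, fderiv ℂ (a 0) u (bs 0 1) + fderiv ℂ (a 1) u (bs 1 1) = 0) →
      (∀ u, fderiv ℂ φ u (a 0 u • bs 0 1 + a 1 u • bs 1 1) = (fderiv ℂ φ u).det • bs j 1) →
      IntegrableOn (fun u => ((‖(fderiv ℂ φ u).det‖ ^ 2 : ℝ) : ℂ) *
        (G u * ((fderiv ℝ b u ((Ring.inverse (fderiv ℂ φ u)) (bs j 1)) : ℂ) +
          I * (fderiv ℝ b u ((Ring.inverse (fderiv ℂ φ u)) (bs j I)) : ℂ)))) D ∧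
      ∫ u in D, ((‖(fderiv ℂ φ u).det‖ ^ 2 : ℝ) : ℂ) *
        (G u * ((fderiv ℝ b u ((Ring.inverse (fderiv ℂ φ u)) (bs j 1)) : ℂ) +
          I * (fderiv ℝ b u ((Ring.inverse (fderiv ℂ φ u)) (bs j I)) : ℂ))) = 0 := by
    intro a ha hdiv hM
    have h := div_zero hD hJ ha hdiv hb hbc hbD
    have hfun : (fun u => (G u * (fderiv ℂ φ u).det) *
        (conj (a 0 u) * dbar (fun x => (b x : ℂ)) 0 u +
          conj (a 1 u) * dbar (fun x => (b x : ℂ)) 1 u)) =
        (fun u => ((‖(fderiv ℂ φ u).det‖ ^ 2 : ℝ) : ℂ) *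
        (G u * ((fderiv ℝ b u ((Ring.inverse (fderiv ℂ φ u)) (bs j 1)) : ℂ) +
          I * (fderiv ℝ b u ((Ring.inverse (fderiv ℂ φ u)) (bs j I)) : ℂ)))) := by
      funext u
      rw [hdb, hdb]
      exact (pt_identity (fderiv ℂ φ u) (fderiv ℝ b u) (G u) (a 0 u) (a 1 u) j (hM u)).symm
    rw [hfun] at h
    exact h
  have hent : ∀ i k u, fderiv ℂ φ u (bs k 1) i = ent φ i k u := fun _ _ _ => rfl
  fin_cases j
  · refine main (fun k => if k = 0 then ent φ 1 1 else fun u => - ent φ 1 0 u) ?_ ?_ ?_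
    · intro k
      fin_cases k
      · exact ent_analytic hφ 1 1
      · exact (ent_analytic hφ 1 0).neg
    · intro u hu
      have h1 := ent_symm hφ 1 1 0 hu
      simp only [if_true, one_ne_zero, if_false]
      rw [fderiv_fun_neg, _root_.neg_apply, h1]
      ring
    · intro u
      simp only [if_true, one_ne_zero, if_false]
      rw [hdet, map_add, map_smul, map_smul]
      ext i
      simp only [Pi.add_apply, Pi.smul_apply, smul_eq_mul, hent]
      fin_cases i
      · simp [bs]; ring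
      · simp [bs]; ring
  · refine main (fun k => if k = 0 then (fun u => - ent φ 0 1 u) else ent φ 0 0) ?_ ?_ ?_
    · intro k
      fin_cases k
      · exact (ent_analytic hφ 0 1).neg
      · exact ent_analytic hφ 0 0
    · intro u hu
      have h1 := ent_symm hφ 0 1 0 hu
      simp only [if_true, one_ne_zero, if_false]
      rw [fderiv_fun_neg, _root_.neg_apply, h1]
      ring
    · intro u
      simp only [if_true, one_ne_zero, if_false]
      rw [hdet, map_add, map_smul, map_smul]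
      ext i
      simp only [Pi.add_apply, Pi.smul_apply, smul_eq_mul, hent]
      fin_cases i
      · simp [bs]; ring
      · simp [bs]; ring

/-- The real determinant of a complex linear map. -/
theorem det_real (L : W →L[ℂ] W) : |(L.restrictScalars ℝ).det| = ‖L.det‖ ^ 2 := by
  have h1 : (L.restrictScalars ℝ).det = Algebra.norm ℝ (L.det) := by
    have := LinearMap.det_restrictScalars (R := ℝ) (S := ℂ) (f := (L : W →ₗ[ℂ] W))
    exact this
  rw [h1, Algebra.norm_complex_apply, normSq_eq_norm_sq, abs_of_nonneg (sq_nonneg _)]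

end Vale.Agent.P300.H918
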